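import Vale.Agent.P153.JG.AllB
import Vale.Agent.P153.R2.KPOS.H460.Main

/-!
P153: free boundary values `±1`, unconditionally: the constant is positive.
-/

set_option autoImplicit false

open MeasureTheory ProbabilityTheory Filter Topology

namespace Vale.Agent.P153.JG6

open Vale.Agent.P153
open Vale.Agent.P153.JG3 (Law Prob len unif CoConnected HeightsOn IsLocalLimit interp
  TestOn ToGauss V Tri corners verts Heights HeightsB Near pt region fld)
open Vale.Agent.P153.JG5 (Encl Approx approx_of poly_of encl_of)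

/-- Everything, with a positive constant. -/
def Shape6 : Prop := ∃ P : Law, ∃ hP : Prob P,
    (∀ D : ℕ → Finset (ℤ × ℤ), (∀ n, CoConnected (D n)) → (∀ x, ∀ᶠ n in atTop, x ∈ D n) →
      IsLocalLimit P D) ∧
    ∃ κ : ℝ, 0 < κ ∧
      Tendsto (fun x => JG3.mean P (fun h => ((h x - h 0 : ℤ) : ℝ) ^ 2) / Real.log (len x)) cofinite
        (𝓝 (κ / Real.pi)) ∧
      (∀ f : ℝ × ℝ → ℝ, TestOn Set.univ f → ∫ x, f x = 0 →
        ToGauss (𝓝[>] 0) (fun _ => P) (fun _ => hP)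
          (fun δ h => ∫ z : ℝ × ℝ, interp h (z.1 / δ, z.2 / δ) * f z)
          (κ * ∫ x, ∫ y, -(2 * Real.pi)⁻¹ *
            Real.log (√((x.1 - y.1) ^ 2 + (x.2 - y.2) ^ 2)) * f x * f y)) ∧
      (∀ (Φ : (ℝ × ℝ) ≃ₜ (ℝ × ℝ)) (D : Set (ℝ × ℝ)),
        D = Φ '' {z | z.1 ^ 2 + z.2 ^ 2 < 1} → ∀ (δ : ℕ → ℝ) (N : ℕ → ℕ)
        (p : ∀ n, ZMod (N n) → ℤ × ℤ) (S : ℕ → Finset Tri), Approx D δ N p S →
        ∃ hL : ∀ n, Prob (unif (Heights (p n) (S n))), ∀ φ, TestOn D φ →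
          ToGauss atTop (fun n => unif (Heights (p n) (S n))) hL (fun n => fld (S n) (δ n) φ)
            (κ * V D φ) ∧
          ∀ (ξ : ∀ n, ZMod (N n) → ℤ) (c m : ℕ → ℝ) (a : ℝ)
            (hB : ∀ n, Prob (unif (HeightsB (p n) (S n) (ξ n)))), (∀ n i, |ξ n i| = 1) →
            (∀ n, 0 < c n) → 0 < a → 0 < V D φ →
            ToGauss atTop (fun n => unif (HeightsB (p n) (S n) (ξ n))) hB
              (fun n h => (fld (S n) (δ n) φ h - m n) / c n) (a ^ 2 * V D φ) →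
            Tendsto c atTop (𝓝 (√κ / a))) ∧
      ∀ (n : ℕ) (p : ZMod n → ℤ × ℤ) (S : Finset Tri) (ξ : ZMod n → ℤ) (A : Set (ℤ × ℤ → ℤ)),
        Encl p S → (∀ i, |ξ i| = 1) →
        ((HeightsB p S ξ ∩ A).ncard : ℝ) / (HeightsB p S ξ).ncard ≤
          ((Heights p S ∩ Near A).ncard : ℝ) / (Heights p S).ncard

theorem main6 : Shape6 := by
  obtain ⟨Q, κ', hQ, hP, hS, hC, hκ, hpr, ⟨h1, h2, _, _, _, _, _, h4, h5⟩, h6, _⟩ :=
    F.exists_all
  have h30 : (0 : ℝ) < √3 := by positivity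
  have h5' : Tendsto (fun x : ℤ × ℤ =>
      (∫ h, ((h x - h 0 : ℤ) : ℝ) ^ 2 ∂((Q.map A.rc).map GFF.dbl)) /
      Real.log (GFF.len x)) cofinite (𝓝 (4 * κ' / √3 / Real.pi)) := by
    refine h5.congr fun x => ?_
    congr 1
    refine integral_congr_ae ?_
    filter_upwards [h1] with h hh
    rw [hh, sub_zero]
  have hJ : 0 < 4 * κ' / √3 → JG.JordanPart (4 * κ' / √3) := by
    intro hk
    refine JG.jordanPart_of (fun D hD => F.jordan hQ hP hS hC ?_ hD)
    by_contra hn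
    have h0 : κ' = 0 := le_antisymm (not_lt.1 hn) hκ
    rw [h0] at hk
    simp at hk
  have hκ0 : 0 < κ' := R2.KPOS.kpos hQ hP hS hκ
  have hk : 0 < 4 * κ' / √3 := by positivity
  refine ⟨(Q.map A.rc).map GFF.dbl, hpr,
    fun D hD hx => (JG3.lim_iff _ D).2 (h2 D (fun n => (JG3.co_iff _).1 (hD n)) hx),
    4 * κ' / √3, hk, h5', fun f hf h0 => ?_,
    fun Φ D hD δ N p S hA => ?_, fun n p S ξ B hS' hξ => ?_⟩
  · obtain ⟨a1, a2⟩ := h6 1 (fun _ => f) fun _ => ⟨hf.1, hf.2.1, h0⟩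
    exact JG.toG_of_vec a1 a2
  · have hA' := approx_of hA
    have hD' : F.Dom.JordanDomain D := ⟨Φ, hD⟩
    obtain ⟨hL, h1⟩ := hJ hk D hD' δ N p S hA'
    have e : (fun n => JG.law (p n) (S n)) = fun n => unif (Heights (p n) (S n)) := by
      funext n
      exact (JG3.law_eq _ _).symm
    have hL' : ∀ n, Prob (unif (Heights (p n) (S n))) := fun n => by
      have := hL n
      rw [← JG3.law_eq] at this
      exact this
    refine ⟨hL', fun φ hφ => ⟨JG3.toG_congr e (h1 φ hφ), ?_⟩⟩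
    intro ξ c m a hB hξ hc ha hV hG
    have eB : (fun n => unif (HeightsB (p n) (S n) (ξ n))) =
        fun n => uniformOn {h | h ∈ F.Dom.Heights (p n) (S n) ∧ ∀ i, h (p n i) = ξ n i} := by
      funext n
      rw [JG3.heightsB_eq]
      rfl
    have hB' : ∀ n, IsProbabilityMeasure
        (uniformOn {h | h ∈ F.Dom.Heights (p n) (S n) ∧ ∀ i, h (p n i) = ξ n i}) := fun n => by
      have := hB n
      rw [JG3.heightsB_eq] at this
      exact this
    exact F.Dom.Arcs.norm_of_conv (hJ hk) hk hD' hA' ξ (fun n i => (JG3.abs_one _).1 (hξ n i)) hφ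
      hV ha hc (hL := hB') (JG3.toG_congr eB hG)
  · have h1 := JG.near_le p S ξ B (poly_of hS') (encl_of hS') hξ
    have e : HeightsB p S ξ = JG.HeightsB p S ξ := JG3.heightsB_eq p S ξ
    rw [e, JG3.heights_eq]
    exact h1

end Vale.Agent.P153.JG6
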