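import Vale.Agent.P153.R2.Final.BothT
import Vale.Agent.P153.R2.KAPV.SLand2
import Vale.Agent.P153.R2.KAPV.SMom

/-!
P153, two-arc boundary values: the value `8 / π` of the constant, and the final theorem.
-/

set_option autoImplicit false

namespace Vale.Agent.P153.R2.Final

open Filter Topology Set MeasureTheory
open Vale.Agent.P153 Vale.Agent.P153.F.X

/-- **The value of the constant.** -/
theorem Par.kap {Q : Measure A.Om} {κ' : ℝ} (h : Par Q κ') : 4 * κ' / √3 = 8 / Real.pi := by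
  have hκ := h.pos
  have lvl := F.lvl_of h.isQ h.plane h.spec h.clt hκ
  have hem : S_emom (Q.map A.rc) := s_emom lvl.ext s_conf s_loc
  have hmb : KAPV.L_mb := KAPV.l_mb h.plane lvl.mom hem lvl.rsw s_loc s_conf
  have hl2 : KAPV.L_l2 := KAPV.l_l2 fun δ hδ hlim => s_l2 hδ hlim lvl.low (lvl.mm δ hδ hlim)
    lvl.rsw s_loc
  have hvb : KAPV.L_vb := KAPV.l_vb h.isQ h.plane h.spec h.clt hκ lvl.rsw lvl.mom hem
  have hv4 : KAPV.L_v4 := KAPV.l_v4 h.isQ h.plane h.spec h.clt hκ lvl.rsw lvl.mom hem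
  have hM : KAPV.L_landM := KAPV.l_landM (LOC.s_land_of (by norm_num) (h.land hκ 2)) hmb hv4
  exact KAPV.kap_top (by positivity) (h.land hκ 2) hmb hl2 hvb (SDAR.l_sd (h.scen hκ))
    (KAPV.l_landP hM) hM

/-- **The field theorem and the curve theorem.** -/
theorem full_lim : FieldLimit (8 / Real.pi) ∧ CurveLimit := by
  obtain ⟨Q, κ', h⟩ := exists_par
  have hκ := h.pos
  have h1 := h.field hκ
  rw [h.kap] at h1
  exact ⟨h1, h.curve hκ⟩

theorem Thm.full_lim : Thm.FieldTheorem (8 / Real.pi) ∧ Thm.CurveTheorem :=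
  ⟨Thm.fieldT Final.full_lim.1, Thm.curveT Final.full_lim.2⟩

end Vale.Agent.P153.R2.Final
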