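import Vale.Agent.P153.R2.Final.Defs

/-!
Uniform odd heights on the triangular lattice with the boundary values `1` and `-1` on two arcs:
the final statements, for all lattice polygons whose marked boundary curves converge to the marked
boundary curve of the domain.
-/

namespace Vale.Agent.P153.R2.Final.Thm

open MeasureTheory ProbabilityTheory Filter Topology Set

/-- Lattice polygons `p n` of mesh `δ n → 0`, with the boundary vertices divided into
`p 0, …, p (k - 1)` and `p k, …, p (N - 1)`, approximating the marked domain `(D; a, b)`: the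
marked boundary curves converge uniformly modulo reparametrization (the marks of the polygon are
on its edges `p (N - 1) p 0` and `p (k - 1) p k`). -/
def Converges (Φ : (ℝ × ℝ) ≃ₜ (ℝ × ℝ)) (δ : ℕ → ℝ) (N k : ℕ → ℕ)
    (p : ∀ n, ZMod (N n) → ℤ × ℤ) (S : ℕ → Finset Tri) : Prop :=
  (∀ n, 0 < δ n ∧ 0 < k n ∧ k n < N n ∧ IsPolygon (p n) ∧ Encloses (p n) (S n)) ∧
  Tendsto δ atTop (𝓝 0) ∧
  ∀ ε > 0, ∀ᶠ n in atTop, ∃ s : ℕ → ℝ, Monotone s ∧ s 0 = 0 ∧ s (k n) = Real.pi ∧
    s (N n) = 2 * Real.pi ∧ ∀ i < N n, ∀ t ∈ Icc (s i) (s (i + 1)),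
      dist (δ n • pt (p n i)) (Φ (circ t)) < ε

/-- The field theorem: for every marked Jordan domain and every approximation of it, `h_δ`
converges in law to `u + √κ Φ_D` (the random variables `h_δ(φ)` converge in law for every test
function `φ`, hence, by linearity, so do the vectors of finitely many of them), and the
expectations converge. -/
def FieldTheorem (κ : ℝ) : Prop :=
  ∀ Φ : (ℝ × ℝ) ≃ₜ (ℝ × ℝ), ∃ u, IsHarm Φ u ∧
    (∀ u', IsHarm Φ u' → ∀ z ∈ dom Φ, u' z = u z) ∧
    ∀ (δ : ℕ → ℝ) (N k : ℕ → ℕ) (p : ∀ n, ZMod (N n) → ℤ × ℤ) (S : ℕ → Finset Tri),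
      Converges Φ δ N k p S → ∃ hL : ∀ n, Prob (law (p n) (k n) (S n)),
        ∀ φ, TestOn (dom Φ) φ →
          Tendsto (fun n => mean (law (p n) (k n) (S n)) (fld (S n) (δ n) φ)) atTop
            (𝓝 (∫ z, u z * φ z)) ∧
          ToGauss atTop (fun n => law (p n) (k n) (S n)) hL (fun n => fld (S n) (δ n) φ)
            (∫ z, u z * φ z) (κ * V (dom Φ) φ)

/-- The curve theorem: there is a chordal `SLE_4` trace `γ` in the upper half-plane, from `0` to
`∞`, such that for every marked Jordan domain `(D; a, b)`, every conformal map `ψ` from the upper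
half-plane onto `(D; a, b)` and every approximation of `(D; a, b)` the interfaces converge in law
to the chordal `SLE_4` curve `ψ ∘ γ` of `(D; a, b)`, in the uniform metric modulo increasing
reparametrization: the expectations of all bounded continuous functions `F` of the curve which are
invariant under increasing reparametrization converge. -/
def CurveTheorem : Prop :=
  ∃ (Ω : Type) (_ : MeasurableSpace Ω) (P : Measure Ω) (_ : IsProbabilityMeasure P)
    (γ : Ω → ℝ → ℂ), IsSLETrace 4 P γ ∧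
    ∀ Φ : (ℝ × ℝ) ≃ₜ (ℝ × ℝ), (∃ ψ, IsUniformizer Φ ψ) ∧ ∀ ψ, IsUniformizer Φ ψ →
      ∃ G : Ω → C(unitInterval, ℂ),
        (∀ᵐ ω ∂P, G ω 1 = toC (Φ (circ Real.pi)) ∧
          ∀ t : unitInterval, (t : ℝ) < 1 → G ω t = ψ (γ ω (t / (1 - t)))) ∧
        (∀ F : C(unitInterval, ℂ) → ℝ, Continuous F → AEMeasurable (fun ω => F (G ω)) P) ∧
        ∀ (δ : ℕ → ℝ) (N k : ℕ → ℕ) (p : ∀ n, ZMod (N n) → ℤ × ℤ) (S : ℕ → Finset Tri),
          Converges Φ δ N k p S →
          (∀ n, ∀ h ∈ Heights (p n) (k n) (S n), ∃ c,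
            IsInterface (p n) (k n) (S n) (δ n) h c) ∧
          ∀ c : ∀ n, (ℤ × ℤ → ℤ) → C(unitInterval, ℂ),
            (∀ n, ∀ h ∈ Heights (p n) (k n) (S n),
              IsInterface (p n) (k n) (S n) (δ n) h (c n h)) →
            ∀ F : C(unitInterval, ℂ) → ℝ, Continuous F → (∃ M, ∀ x, |F x| ≤ M) →
              (∀ (x : C(unitInterval, ℂ)) (σ : C(unitInterval, unitInterval)), StrictMono σ →
                Function.Surjective σ → F (x.comp σ) = F x) →
              Tendsto (fun n => mean (law (p n) (k n) (S n)) fun h => F (c n h)) atTop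
                (𝓝 (∫ ω, F (G ω) ∂P))

end Vale.Agent.P153.R2.Final.Thm
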