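import Vale.Agent.P153.R2.FLDI.FinalF
import Vale.Agent.P153.R2.FLDI.Free
import Vale.Agent.P153.R2.FLDI.Conn7
import Vale.Agent.P153.R2.FLDI.ScenA
import Vale.Agent.P153.R2.RDEC.Final

/-!
P153, two-arc boundary values: assembly of the field theorem `Final.FieldLimit`.
-/

set_option autoImplicit false

namespace Vale.Agent.P153.R2.Final

open Filter Topology Set MeasureTheory
open Vale.Agent.P145.PT Vale.Agent.P153

/-- The measure of the plane theorem and its constant. -/
structure Par (Q : Measure A.Om) (κ' : ℝ) : Prop where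
  isQ : A.IsQ Q
  plane : GFF.Plane (Q.map A.rc)
  spec : GFF.SpecOut (Q.map A.rc) κ'
  clt : GFF.RowCLT (Q.map A.rc) κ'
  nonneg : 0 ≤ κ'

theorem exists_par : ∃ (Q : Measure A.Om) (κ' : ℝ), Par Q κ' := by
  obtain ⟨Q, κ', hQ, hP, hS, hC, hκ, -⟩ := F.exists_all
  exact ⟨Q, κ', hQ, hP, hS, hC, hκ⟩

/-- **The field theorem** from the Schwinger-Dyson equations of the exact data and the landing
statement. -/
theorem fieldLimit_of {Q : Measure A.Om} {κ' : ℝ} (h : Par Q κ') (hκ : 0 < κ')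
    (hsd : FLDI.S_sdar (4 * κ' / √3)) (hL : LAND.S_land 2) : FieldLimit (4 * κ' / √3) := by
  have h3 : (0 : ℝ) < √3 := by positivity
  exact FLDI.s_fieldLimit _ (by positivity) (FLDI.s_free_of h.isQ h.plane h.spec h.clt hκ) hsd
    (FLDI.s_conn hL)

/-- The same with the goal of block SDAR. -/
theorem fieldLimit_of_scen {Q : Measure A.Om} {κ' : ℝ} (h : Par Q κ') (hκ : 0 < κ')
    (hsd : SDAR.S_scen (4 * κ' / √3)) (hL : LAND.S_land 2) : FieldLimit (4 * κ' / √3) :=
  fieldLimit_of h hκ (FLDI.sdar_of_scen hsd) hL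

/-- The landing statement. -/
theorem Par.land {Q : Measure A.Om} {κ' : ℝ} (h : Par Q κ') (hκ : 0 < κ') (j : ℕ) :
    LAND.S_land j := RD.s_land h.isQ h.plane h.spec h.clt hκ j

/-- **The field theorem** from the Schwinger-Dyson equations and `κ > 0`. -/
theorem Par.fieldLimit {Q : Measure A.Om} {κ' : ℝ} (h : Par Q κ') (hκ : 0 < κ')
    (hsd : SDAR.S_scen (4 * κ' / √3)) : FieldLimit (4 * κ' / √3) :=
  fieldLimit_of_scen h hκ hsd (h.land hκ 2)

end Vale.Agent.P153.R2.Final
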