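import Vale.Agent.P153.R2.Final.Scen
import Vale.Agent.P153.R2.KPOS.H460.Main

/-!
P153, two-arc boundary values: the field theorem, unconditionally.
-/

set_option autoImplicit false

namespace Vale.Agent.P153.R2.Final

open Filter Topology Set MeasureTheory
open Vale.Agent.P153

/-- **Positivity of the constant.** -/
theorem Par.pos {Q : Measure A.Om} {κ' : ℝ} (h : Par Q κ') : 0 < κ' :=
  KPOS.kpos h.isQ h.plane h.spec h.nonneg

/-- **The field theorem.** -/
theorem field_lim : ∃ κ : ℝ, 0 < κ ∧ FieldLimit κ := by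
  obtain ⟨Q, κ', h⟩ := exists_par
  have hκ := h.pos
  exact ⟨4 * κ' / √3, by positivity, h.field hκ⟩

end Vale.Agent.P153.R2.Final
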