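import Vale.Agent.P153.R2.Final.Curve
import Vale.Agent.P153.R2.Final.Pos

/-!
P153, two-arc boundary values: the field theorem and the curve theorem, unconditionally.
-/

set_option autoImplicit false

namespace Vale.Agent.P153.R2.Final

open Filter Topology Set MeasureTheory
open Vale.Agent.P153

/-- **The field theorem and the curve theorem.** -/
theorem both_lim : ∃ κ : ℝ, 0 < κ ∧ FieldLimit κ ∧ CurveLimit := by
  obtain ⟨Q, κ', h⟩ := exists_par
  have hκ := h.pos
  exact ⟨4 * κ' / √3, by positivity, h.field hκ, h.curve hκ⟩

end Vale.Agent.P153.R2.Final
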