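import Vale.Agent.P153.R2.Final.PosT
import Vale.Agent.P153.R2.Final.Both

/-!
P153, two-arc boundary values: both theorems for the convergence of the boundary curves.
-/

set_option autoImplicit false

namespace Vale.Agent.P153.R2.Final.Thm

open Vale.Agent.P153.R2

theorem both_lim : ∃ κ : ℝ, 0 < κ ∧ FieldTheorem κ ∧ CurveTheorem := by
  obtain ⟨κ, h1, h2, h3⟩ := Final.both_lim
  exact ⟨κ, h1, fieldT h2, curveT h3⟩

end Vale.Agent.P153.R2.Final.Thm
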