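import Vale.Agent.P153.R2.Final.Scen
import Vale.Agent.P153.R2.KAPV.Top
import Vale.Agent.P153.R2.SLEX.Uni
import Vale.Agent.P153.R2.SLEX.EndF
import Vale.Agent.P153.R2.UNIQ.Final
import Vale.Agent.P153.R2.SDAR.ArcFin

/-!
P153, two-arc boundary values: the curve theorem from `κ > 0`.
-/

set_option autoImplicit false

namespace Vale.Agent.P153.R2.Final

open Filter Topology Set MeasureTheory
open Vale.Agent.P153

/-- **The curve theorem** from `κ > 0`. -/
theorem Par.curve {Q : Measure A.Om} {κ' : ℝ} (h : Par Q κ') (hκ : 0 < κ') : CurveLimit :=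
  UNIQ.curveLimit_of POLY.i_intf
    (KAPV.i_drv_of_sd (h.land hκ 2) (SDAR.l_sd (h.scen hκ)))
    (SLEX.i_cross h.isQ h.plane h.spec h.clt hκ) (SLEX.i_end (h.land hκ 2))

end Vale.Agent.P153.R2.Final
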