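import Vale.Agent.P153.R2.Final.Defs

/-!
Uniform odd heights on the triangular lattice with the boundary values `1` and `-1` on two arcs:
the logarithmic lower bound of the variance of uniform integer Lipschitz functions.
-/

namespace Vale.Agent.P153.R2.Final

/-- The complement of the finite set `D` is connected in the triangular lattice. -/
def CoConnected (D : Finset (ℤ × ℤ)) : Prop :=
  ∀ x y, x ∉ D → y ∉ D → Relation.ReflTransGen (fun u v => Adj u v ∧ v ∉ D) x y

/-- The logarithmic lower bound (the theorem of Glazman and Manolescu): the variance at the origin
of the uniform integer functions with steps at most `1` on the edges and the value `0` outside the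
finite set `D`, whose complement is connected and which contains the ball of radius `n`, is at
least `c log n`. -/
def LogGrowth : Prop := ∃ c > 0, ∀ (D : Finset (ℤ × ℤ)) (n : ℕ), CoConnected D →
  (∀ x, len x ≤ n → x ∈ D) → c * Real.log n ≤ mean (unif {h | (∀ x, x ∉ D → h x = 0) ∧
    ∀ x y, Adj x y → |h x - h y| ≤ 1}) fun h => (h 0 : ℝ) ^ 2

end Vale.Agent.P153.R2.Final
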