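import Vale.Agent.P153.R2.Final.Scen
import Vale.Agent.P153.R2.Final.DefsG
import Vale.Agent.P153.JG.NormB

/-!
P153, two-arc boundary values: the field theorem from the logarithmic lower bound of the variance.
-/

set_option autoImplicit false

namespace Vale.Agent.P153.R2.Final

open Filter Topology Set MeasureTheory
open Vale.Agent.P153

theorem adj_eqG : Adj = GFF.Adj := JG3.adj_eq

theorem co_iffG (D : Finset (ℤ × ℤ)) : CoConnected D ↔ GFF.CoConn D := by
  unfold CoConnected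
  rw [adj_eqG]
  exact Iff.rfl

theorem exists_par_gm : ∃ (Q : Measure A.Om) (κ' : ℝ), Par Q κ' ∧ (LogGrowth → 0 < κ') := by
  obtain ⟨Q, κ', hQ, hP, hS, hC, hκ, hpr, ⟨h1, h2, _, _, _, _, _, h4, h5⟩, h6, _⟩ := F.exists_all
  refine ⟨Q, κ', ⟨hQ, hP, hS, hC, hκ⟩, fun hg => ?_⟩
  have key : 0 < 4 * κ' / √3 := by
    refine F.GM.pos_of_gm hP h4 h5 ?_
    obtain ⟨c, hc, h⟩ := hg
    refine ⟨c, hc, fun D n hD hx => ?_⟩
    have h1 := h D n ((co_iffG D).2 hD) hx
    unfold mean unif at h1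
    rw [adj_eqG] at h1
    exact h1
  by_contra hn
  have h0 : κ' = 0 := le_antisymm (not_lt.1 hn) hκ
  rw [h0] at key
  simp at key

/-- The field theorem from the logarithmic lower bound. -/
theorem field_of_log (hg : LogGrowth) : ∃ κ : ℝ, 0 < κ ∧ FieldLimit κ := by
  obtain ⟨Q, κ', h, hk⟩ := exists_par_gm
  have hκ := hk hg
  exact ⟨4 * κ' / √3, by positivity, h.field hκ⟩

end Vale.Agent.P153.R2.Final
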