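import Vale.Agent.P153.R2.Final.Curve
import Vale.Agent.P153.R2.Final.GmF

/-!
P153, two-arc boundary values: the two theorems from the logarithmic lower bound of the variance.
-/

set_option autoImplicit false

namespace Vale.Agent.P153.R2.Final

open Filter Topology Set MeasureTheory
open Vale.Agent.P153

/-- Both theorems from the logarithmic lower bound. -/
theorem both_of_log (hg : LogGrowth) : ∃ κ : ℝ, 0 < κ ∧ FieldLimit κ ∧ CurveLimit := by
  obtain ⟨Q, κ', h, hk⟩ := exists_par_gm
  have hκ := hk hg
  exact ⟨4 * κ' / √3, by positivity, h.field hκ, h.curve hκ⟩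

end Vale.Agent.P153.R2.Final
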