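import Vale.Agent.P153.R2.Final.Thm
import Vale.Agent.P153.R2.Final.Pos
import Vale.Agent.P153.R2.APPX.Stmt

/-!
P153, two-arc boundary values: the field theorem for the convergence of the boundary curves.
-/

set_option autoImplicit false

namespace Vale.Agent.P153.R2.Final.Thm

open Vale.Agent.P153.R2

theorem fieldT {κ : ℝ} (h : Final.FieldLimit κ) : FieldTheorem κ := APPX.fieldLimit' h

theorem curveT (h : Final.CurveLimit) : CurveTheorem := APPX.curveLimit' h

theorem field_lim : ∃ κ : ℝ, 0 < κ ∧ FieldTheorem κ := by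
  obtain ⟨κ, h1, h2⟩ := Final.field_lim
  exact ⟨κ, h1, fieldT h2⟩

end Vale.Agent.P153.R2.Final.Thm
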