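import Vale.Agent.P153.R2.Final.AssemF
import Vale.Agent.P153.R2.RINS.Main
import Vale.Agent.P153.R2.GAPS.Full
import Vale.Agent.P153.R2.SDB2.Full
import Vale.Agent.P153.R2.SDAR.Red
import Vale.Agent.P153.R2.SDAR.Expl
import Vale.Agent.P153.R2.SDAR.ScenT

/-!
P153, two-arc boundary values: the Schwinger-Dyson equations of the exact data, and the field
theorem, from `κ > 0`.
-/

set_option autoImplicit false

namespace Vale.Agent.P153.R2.Final

open Filter Topology Set MeasureTheory
open Vale.Agent.P145.PT Vale.Agent.P153 Vale.Agent.P153.F.X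

/-- **The Schwinger-Dyson equations** for every scenario. -/
theorem Par.scen {Q : Measure A.Om} {κ' : ℝ} (h : Par Q κ') (hκ : 0 < κ') :
    SDAR.S_scen (4 * κ' / √3) := by
  have hprob := h.plane.prob
  have lvl := F.lvl_of h.isQ h.plane h.spec h.clt hκ
  have hint : S_int (Q.map A.rc) := s_int h.plane
  have hrins : SDAR.S_rins := RINS.s_rins h.plane lvl.mom (s_emom lvl.ext s_conf s_loc) lvl.rsw
    s_loc s_conf (LOC.s_land_of (by norm_num) (h.land hκ 4))
  exact SDAR.s_scen h.plane lvl.rsw lvl.low lvl.mm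
    (SDAR.s_red hrins (SDAR.s_expl h.plane hint lvl.pos lvl.rsw))
    (Gp.s_gaps_full h.isQ h.plane h.spec h.clt hκ)
    (SDB2.s_sdb_full h.isQ h.plane h.spec h.clt hκ)

/-- **The field theorem** from `κ > 0`. -/
theorem Par.field {Q : Measure A.Om} {κ' : ℝ} (h : Par Q κ') (hκ : 0 < κ') :
    FieldLimit (4 * κ' / √3) := h.fieldLimit hκ (h.scen hκ)

end Vale.Agent.P153.R2.Final
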